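import Vale.Agent.P207.Kat.Q
import Vale.Agent.P207.H442.FrC2
import Vale.Agent.P207.H955.FrN2
import Vale.Agent.P207.H476.Iso3

/-!
# P207 / Kat: the interfaces of the blocks (statements only)

`g₀` is the reference metric, `D : Dat g₀` its volume, Liouville measure, geodesic flow and frame
bundle measure. `A = SmFr g₀`, `C = frCalc g₀`, `D.I` the integral, `D.S` the system of flows with
the norms `cN`, `hN` of H395.
-/

open scoped Manifold ContDiff ENNReal Topology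
open Bundle MeasureTheory Set Filter Topology

noncomputable section

set_option maxSynthPendingDepth 3
set_option linter.unusedSectionVars false

namespace Vale.Agent.P207.Kat

open Vale.Agent.P255 (RMetric coefIn Gam Riem innerAt)
open Vale.Agent.P207 Vale.Agent.P207.Q Vale.Agent.P207.H442
open Vale.Agent.P207.H476 (Dfo pull)

variable {n : ℕ} {M : Type} [TopologicalSpace M] [ChartedSpace (EV n) M]
  [IsManifold 𝓘(ℝ, EV n) ∞ M]

/-- quaternionic or Cayley type: some Jacobi operator `R(·, v)v` has the eigenvalue `-4κ` with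
multiplicity at least two, and the eigenvalue `-κ` -/
def QCType (g : RMetric (EV n) M) : Prop :=
  ∃ (κ : ℝ) (a : M) (u : EV n) (v w₁ w₂ w₃ : EV n), 0 < κ ∧ u ∈ (chartAt (EV n) a).target ∧
    LinearIndependent ℝ ![w₁, w₂] ∧ w₃ ≠ 0 ∧
    Riem (coefIn g a) u w₁ v v = (-4 * κ) • w₁ ∧ Riem (coefIn g a) u w₂ v v = (-4 * κ) • w₂ ∧
    Riem (coefIn g a) u w₃ v v = (-κ) • w₃

section Fam

variable [NeZero n] {g : RMetric (EV n) M}

/-- symmetric 2-tensors (group form of the equivariance) -/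
def GT2 (k : Fin n → Fin n → SmFr g) : Prop :=
  (∀ i j, k i j = k j i) ∧ ∀ (B : Fr.On n) (p : Fr g) (i j : Fin n),
    ev (Fr.rot B p) (k i j) = ∑ a, ∑ b, B.1 a i * B.1 b j * ev p (k a b)

/-- vector fields -/
def GT1 (w : Fin n → SmFr g) : Prop :=
  ∀ (B : Fr.On n) (p : Fr g) (i : Fin n), ev (Fr.rot B p) (w i) = ∑ a, B.1 a i * ev p (w a)

/-- fields along the unit tangent bundle which are perpendicular to `v = e₀` -/
def GAdm (y : Fin n → SmFr g) : Prop :=
  y 0 = 0 ∧ ∀ B ∈ H892.Stab n, ∀ (p : Fr g) (i : Fin n),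
    ev (Fr.rot B p) (y i) = ∑ a, B.1 a i * ev p (y a)

/-- `k = g' - g` read in the frames of `g` -/
def IsK (g g' : RMetric (EV n) M) (k : Fin n → Fin n → SmFr g) : Prop :=
  ∀ (p : Fr g) (i j : Fin n),
    ev p (k i j) = g'.inner p.pt (p.e i) (p.e j) - if i = j then 1 else 0

end Fam

variable [NeZero n] [CompactSpace M] [T2Space M] [MeasurableSpace M] [BorelSpace M]

/-- the measures and the flow of a metric -/
structure Dat (g : RMetric (EV n) M) where
  μ : Measure M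
  m : Measure (UT g)
  φ : ℝ → UT g → UT g
  mP : Measure (Fr g)
  hμ : IsRiemVol g μ
  hm : IsLiouville g μ m
  hφ : IsGeoFlow g φ
  hmp : ∀ t, MeasurePreserving (φ t) m m
  hP : IsMP m mP

namespace Dat

variable {g : RMetric (EV n) M} (D : Dat g)

instance : IsProbabilityMeasure D.mP := D.hP.prob

instance : D.mP.IsOpenPosMeasure := D.hP.openPos

/-- the integral over the frame bundle -/
def I : SmFr g →ₗ[ℝ] ℝ := intF D.mP

variable [Nonempty (Fr g)]

/-- the system of flows of the frame bundle -/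
def S : H395.NSys (H955.Ix n) (Fr g) D.mP := H955.frNSys D.hP D.hφ D.hmp

/-- `C^s` norm of a function -/
def c (s : ℕ) (u : SmFr g) : ℝ := H395.NSys.cN D.S s u

/-- `H^s` norm of a function -/
def h (s : ℕ) (u : SmFr g) : ℝ := H395.NSys.hN D.S s u

/-- `C^s` norm of a vector field or a test field -/
def cV (s : ℕ) (y : Fin n → SmFr g) : ℝ := ∑ i, D.c s (y i)

/-- `H^s` norm of a vector field -/
def hV (s : ℕ) (y : Fin n → SmFr g) : ℝ := ∑ i, D.h s (y i)

/-- `C^s` norm of a 2-tensor -/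
def cT (s : ℕ) (k : Fin n → Fin n → SmFr g) : ℝ := ∑ i, ∑ j, D.c s (k i j)

/-- `H^s` norm of a 2-tensor -/
def hT (s : ℕ) (k : Fin n → Fin n → SmFr g) : ℝ := ∑ i, ∑ j, D.h s (k i j)

/-- the form `Q_y(k)` -/
def Q (k : Fin n → Fin n → SmFr g) (y : Fin n → SmFr g) : ℝ := Qf (frCalc g) D.I k y

/-- **(B2)** the second order expansion of the two stretch inequalities -/
def B2Stmt : Prop :=
  ∃ K : ℝ, 0 < K ∧ ∀ (g' : RMetric (EV n) M) (D' : Dat g') (k : Fin n → Fin n → SmFr g)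
    (y : Fin n → SmFr g), NegCurvature g' → D'.μ univ = D.μ univ → IsK g g' k → GAdm y →
    K * (D.cT 2 k + D.cV 1 y) ≤ 1 →
    ksEntropy D.m (D.φ 1) ≤ ENNReal.ofReal
      (1 - D.Q k y / (2 * n) + K * (D.cT 2 k + D.cV 1 y) ^ 3) * topEntropy (D'.φ 1) ∧
    ksEntropy D'.m (D'.φ 1) ≤ ENNReal.ofReal
      (1 - D.Q k y / (2 * n) + K * (D.cT 2 k + D.cV 1 y) ^ 3) * topEntropy (D.φ 1)

/-- **(VOL)** the mean trace is quadratically small -/
def VOLStmt : Prop :=
  ∃ K : ℝ, 0 < K ∧ ∀ (g' : RMetric (EV n) M) (D' : Dat g') (k : Fin n → Fin n → SmFr g),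
    D'.μ univ = D.μ univ → IsK g g' k → K * D.cT 0 k ≤ 1 →
    |D.I (∑ i, k i i)| ≤ K * D.cT 0 k ^ 2

/-- **(POS)** coercivity modulo gauge -/
def POSStmt : Prop :=
  ∃ (K : ℝ) (r : ℕ), 0 < K ∧ ∀ k : Fin n → Fin n → SmFr g, GT2 k →
    ∃ y : Fin n → SmFr g, GAdm y ∧ D.cV 1 y ≤ K * D.hT r k ∧
      D.I (∑ i, ∑ j, k i j * k i j) ≤
        K * (D.Q k y + D.hV r (divf (frCalc g) k) ^ 2 + D.I (∑ i, k i i) ^ 2)

/-- **(STEP)** one step of the gauge iteration -/
def STEPStmt : Prop :=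
  ∃ r₀ : ℕ, ∀ r₁ r : ℕ, r₀ + r₁ ≤ r → ∃ K : ℝ, 0 < K ∧
    ∀ (g' : RMetric (EV n) M) (k : Fin n → Fin n → SmFr g), IsK g g' k → K * D.hT r k ≤ 1 →
      ∃ (ψ : Dfo n M) (k' : Fin n → Fin n → SmFr g), IsK g (pull g' ψ) k' ∧
        D.hT (8 * r) k' ≤ K * D.hT (8 * r) k ∧ D.hT 0 k' ≤ K * D.hT r k ∧
        D.hV r₁ (divf (frCalc g) k') ≤ K * D.hT r k ^ 2

/-- **(NBH)** closeness in charts (`N` derivatives, finitely many compact pieces) makes the `H^s`
norm of `k` small -/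
def NBHStmt : Prop :=
  ∀ s : ℕ, ∃ (N m : ℕ) (a : Fin m → M) (Kc : Fin m → Set (EV n)),
    (∀ i, IsCompact (Kc i) ∧ Kc i ⊆ (chartAt (EV n) (a i)).target) ∧
    (⋃ i, (chartAt (EV n) (a i)).symm '' Kc i) = univ ∧
    ∀ δ > (0 : ℝ), ∃ ε > (0 : ℝ), ∀ g' : RMetric (EV n) M,
      (∀ i, ∀ j l : Fin n, ∀ q ≤ N, ∀ u ∈ Kc i,
        ‖iteratedFDeriv ℝ q (fun p => coefIn g' (a i) p (EuclideanSpace.single j 1)
            (EuclideanSpace.single l 1)) u
          - iteratedFDeriv ℝ q (fun p => coefIn g (a i) p (EuclideanSpace.single j 1)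
            (EuclideanSpace.single l 1)) u‖ < ε) →
      ∃ k : Fin n → Fin n → SmFr g, IsK g g' k ∧ GT2 k ∧ D.hT s k ≤ δ

/-- **(LIM)** a metric with pull-backs arbitrarily close to the locally symmetric metric `g` is
locally symmetric -/
def LIMStmt : Prop :=
  LocSymmetric g → ∃ s : ℕ, ∀ g' : RMetric (EV n) M,
    (∀ δ > (0 : ℝ), ∃ (ψ : Dfo n M) (k : Fin n → Fin n → SmFr g), IsK g (pull g' ψ) k ∧
      D.hT s k ≤ δ) → LocSymmetric g'

/-- **(FIN)** the conclusion at fixed volume, in terms of the norms of `k` -/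
def FINStmt : Prop :=
  ∃ s : ℕ, ∃ ε > (0 : ℝ), ∀ (g' : RMetric (EV n) M) (D' : Dat g')
    (k : Fin n → Fin n → SmFr g), NegCurvature g' → D'.μ univ = D.μ univ → IsK g g' k →
    D.hT s k ≤ ε →
    (topEntropy (D'.φ 1) ≤ topEntropy (D.φ 1) ∨ ksEntropy D.m (D.φ 1) ≤ ksEntropy D'.m (D'.φ 1)) →
    LocSymmetric g'

end Dat

end Vale.Agent.P207.Kat
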