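import Vale.Agent.P207.Kat.Fin

/-!
# P207 / Kat: the final statement in the working language
-/

open scoped Manifold ContDiff ENNReal Topology
open Bundle MeasureTheory Set Filter Topology

noncomputable section

set_option maxSynthPendingDepth 3
set_option linter.unusedSectionVars false

namespace Vale.Agent.P207.Kat

open Vale.Agent.P255 (RMetric coefIn Gam Riem innerAt)
open Vale.Agent.P207 Vale.Agent.P207.Q Vale.Agent.P207.H442
open Vale.Agent.P207.H476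

variable {n : ℕ} {M : Type} [TopologicalSpace M] [ChartedSpace (EV n) M]
  [IsManifold 𝓘(ℝ, EV n) ∞ M]

/-- `g'` is `C^N`-close to `g` on the pieces `Kc i` of the charts at `a i` -/
def Near (g g' : RMetric (EV n) M) (N m : ℕ) (a : Fin m → M) (Kc : Fin m → Set (EV n)) (ε : ℝ) :
    Prop :=
  ∀ i, ∀ j l : Fin n, ∀ q ≤ N, ∀ u ∈ Kc i,
    ‖iteratedFDeriv ℝ q (fun p => coefIn g' (a i) p (EuclideanSpace.single j 1)
        (EuclideanSpace.single l 1)) u
      - iteratedFDeriv ℝ q (fun p => coefIn g (a i) p (EuclideanSpace.single j 1)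
        (EuclideanSpace.single l 1)) u‖ < ε

variable [NeZero n] [CompactSpace M] [T2Space M] [MeasurableSpace M] [BorelSpace M]

namespace Dat

variable {g : RMetric (EV n) M} (D : Dat g)

/-- **(EQ)** the conclusion without normalisation of the volume -/
def EQStmt [Nonempty (Fr g)] : Prop :=
  ∃ s : ℕ, ∃ ε > (0 : ℝ), ∀ (g' : RMetric (EV n) M) (D' : Dat g')
    (k : Fin n → Fin n → SmFr g), NegCurvature g' → IsK g g' k → D.hT s k ≤ ε →
    ksEntropy D'.m (D'.φ 1) = topEntropy (D'.φ 1) → LocSymmetric g'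

/-- the final statement -/
def FinalStmt : Prop :=
  ∃ (N m : ℕ) (a : Fin m → M) (Kc : Fin m → Set (EV n)),
    (∀ i, IsCompact (Kc i) ∧ Kc i ⊆ (chartAt (EV n) (a i)).target) ∧
    (⋃ i, (chartAt (EV n) (a i)).symm '' Kc i) = univ ∧
    ∃ ε > (0 : ℝ), ∀ g' : RMetric (EV n) M, NegCurvature g' → Near g g' N m a Kc ε →
      ∀ D' : Dat g', (ksEntropy D'.m (D'.φ 1) = topEntropy (D'.φ 1) ↔ LocSymmetric g') ∧
        (D'.μ univ = D.μ univ → LocSymmetric g' ∨
          (ksEntropy D'.m (D'.φ 1) < topEntropy (D.φ 1) ∧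
            topEntropy (D.φ 1) < topEntropy (D'.φ 1)))

theorem final_of [Nonempty (Fr g)] [ConnectedSpace M] (hn : 2 ≤ n) (hN : NegCurvature g)
    (hS : LocSymmetric g) (hFIN : D.FINStmt) (hEQ : D.EQStmt) (hNBH : D.NBHStmt) :
    D.FinalStmt := by
  obtain ⟨s₁, ε₁, hε₁, F⟩ := hFIN
  obtain ⟨s₂, ε₂, hε₂, E⟩ := hEQ
  obtain ⟨N, m, a, Kc, hK, hcov, hδ⟩ := hNBH (max s₁ s₂)
  obtain ⟨ε, hε, H⟩ := hδ (min ε₁ ε₂) (lt_min hε₁ hε₂)
  refine ⟨N, m, a, Kc, hK, hcov, ε, hε, ?_⟩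
  intro g' hN' hnear D'
  obtain ⟨k, hk, -, hkδ⟩ := H g' hnear
  have h1 : D.hT s₁ k ≤ ε₁ :=
    (D.hT_mono (le_max_left _ _) k).trans (hkδ.trans (min_le_left _ _))
  have h2 : D.hT s₂ k ≤ ε₂ :=
    (D.hT_mono (le_max_right _ _) k).trans (hkδ.trans (min_le_right _ _))
  refine ⟨⟨E g' D' k hN' hk h2, fun h =>
    ksEntropy_eq_of_locSymmetric hn D'.hφ D'.hμ D'.hm hN' h⟩, fun hvol => ?_⟩
  by_cases hL : LocSymmetric g'
  · exact Or.inl hL
  · right
    have h3 : ¬(topEntropy (D'.φ 1) ≤ topEntropy (D.φ 1) ∨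
        ksEntropy D.m (D.φ 1) ≤ ksEntropy D'.m (D'.φ 1)) :=
      fun h => hL (F g' D' k hN' hvol hk h1 h)
    push Not at h3
    have e := ksEntropy_eq_of_locSymmetric hn D.hφ D.hμ D.hm hN hS
    exact ⟨by rw [← e]; exact h3.2, h3.1⟩

end Dat

end Vale.Agent.P207.Kat
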