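import Vale.Agent.P207.Kat.Main

/-!
# P207 / Kat: the iteration, from the blocks to `FINStmt`
-/

open scoped Manifold ContDiff ENNReal Topology
open Bundle MeasureTheory Set Filter Topology

noncomputable section

set_option maxSynthPendingDepth 3
set_option linter.unusedSectionVars false

namespace Vale.Agent.P207.Kat

open Vale.Agent.P255 (RMetric coefIn Gam Riem innerAt)
open Vale.Agent.P207 Vale.Agent.P207.Q Vale.Agent.P207.H442
open Vale.Agent.P207.H476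

variable {n : ℕ} {M : Type} [TopologicalSpace M] [ChartedSpace (EV n) M]
  [IsManifold 𝓘(ℝ, EV n) ∞ M]

/-! ### isometries -/

theorem isIso_refl (G : P255.Metric (EV n) M) : IsIso G G (Dfo.refl n M) :=
  fun a b u hu hb v w => G.compat a b u hu hb v w

theorem inner_eq_of_iso {g₁ g₂ g₃ : RMetric (EV n) M} {ψ : Dfo n M}
    (h₁ : IsIso (mt g₁) (mt g₃) ψ) (h₂ : IsIso (mt g₂) (mt g₃) ψ) (x : M) (v w : EV n) :
    innerB g₁ x v w = innerB g₂ x v w := by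
  have h := IsIso.coef_eq h₁ h₂ x (mem_chart_target (EV n) x)
  rw [← H717.coef_self, ← H717.coef_self, h]

section K

variable [NeZero n] {g : RMetric (EV n) M}

theorem isK_of_iso {g₁ g₂ g₃ : RMetric (EV n) M} {ψ : Dfo n M}
    (h₁ : IsIso (mt g₁) (mt g₃) ψ) (h₂ : IsIso (mt g₂) (mt g₃) ψ)
    {k : Fin n → Fin n → SmFr g} (hk : IsK g g₁ k) : IsK g g₂ k := by
  intro p i j
  rw [hk p i j]
  congr 1
  exact inner_eq_of_iso h₁ h₂ p.pt (p.e i) (p.e j)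

theorem isK_refl {g' : RMetric (EV n) M} {k : Fin n → Fin n → SmFr g} (hk : IsK g g' k) :
    IsK g (pull g' (Dfo.refl n M)) k :=
  isK_of_iso (isIso_refl (mt g')) (isIso_pull g' (Dfo.refl n M)) hk

theorem isK_comp {g' : RMetric (EV n) M} {ψ φ : Dfo n M} {k : Fin n → Fin n → SmFr g}
    (hk : IsK g (pull (pull g' ψ) φ) k) : IsK g (pull g' (ψ.comp φ)) k :=
  isK_of_iso (IsIso.comp (isIso_pull g' ψ) (isIso_pull (pull g' ψ) φ))
    (isIso_pull g' (ψ.comp φ)) hk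

theorem gt2_of_isK {g' : RMetric (EV n) M} {k : Fin n → Fin n → SmFr g} (hk : IsK g g' k) :
    GT2 k := by
  have hs : ∀ (p : Fr g) (i j : Fin n), ev p (k i j) = H992.KK g' p i j := by
    intro p i j
    rw [hk p i j]
    unfold H992.KK H992.GG
    rw [Matrix.sub_apply, Matrix.one_apply]
    rfl
  refine ⟨fun i j => ?_, fun B p i j => ?_⟩
  · have : ∀ p, ev p (k i j) = ev p (k j i) := by
      intro p
      rw [hk p i j, hk p j i, g'.symm p.pt (p.e i) (p.e j)]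
      by_cases h : i = j
      · rw [h]
      · rw [if_neg h, if_neg (Ne.symm h)]
    exact Subtype.ext (ContinuousMap.ext this)
  · rw [hs, H992.KK_rot]
    simp only [Matrix.mul_apply, Matrix.transpose_apply, Finset.sum_mul]
    rw [Finset.sum_comm]
    refine Finset.sum_congr rfl fun a _ => Finset.sum_congr rfl fun b _ => ?_
    rw [hs]
    ring

end K

variable [NeZero n] [CompactSpace M] [T2Space M] [MeasurableSpace M] [BorelSpace M]

namespace Dat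

/-- the data of two isometric metrics -/
theorem iso_facts {g₁ g₂ : RMetric (EV n) M} (D₁ : Dat g₁) (D₂ : Dat g₂) {ψ : Dfo n M}
    (h : IsIso (mt g₁) (mt g₂) ψ) :
    D₁.μ univ = D₂.μ univ ∧ topEntropy (D₁.φ 1) = topEntropy (D₂.φ 1) ∧
      ksEntropy D₁.m (D₁.φ 1) = ksEntropy D₂.m (D₂.φ 1) := by
  have e1 : D₁.μ.map ψ.h = D₂.μ := (isRiemVol_map h D₁.hμ).unique D₂.hμ
  have e2 : D₁.m.map (utMap h) = D₂.m := by
    have := isLiouville_map h D₁.hm
    rw [e1] at this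
    exact this.unique D₂.hm
  refine ⟨?_, (topEntropy_iso h D₁.hφ D₂.hφ).symm, ?_⟩
  · rw [← e1, Measure.map_apply ψ.h.continuous.measurable MeasurableSet.univ, preimage_univ]
  · rw [← e2]
    exact (ksEntropy_iso h D₁.hφ D₂.hφ D₁.m).symm

variable {g : RMetric (EV n) M} (D : Dat g) [Nonempty (Fr g)]

theorem hV_mono {s t : ℕ} (hst : s ≤ t) (y : Fin n → SmFr g) : D.hV s y ≤ D.hV t y :=
  Finset.sum_le_sum fun i _ => D.h_mono hst (y i)

variable [ConnectedSpace M]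

/-- **the iteration** -/
theorem fin_of (hn : 2 ≤ n) (hN : NegCurvature g) (hS : LocSymmetric g) (hB2 : D.B2Stmt)
    (hVOL : D.VOLStmt) (hPOS : D.POSStmt) (hSTEP : D.STEPStmt) (hLIM : D.LIMStmt) :
    D.FINStmt := by
  obtain ⟨dS, KS, hKS, sob⟩ := D.exists_sob
  obtain ⟨K1, hK1, B2⟩ := hB2
  obtain ⟨K2, hK2, VOL⟩ := hVOL
  obtain ⟨K3, r3, hK3, POS⟩ := hPOS
  obtain ⟨r0, STEP⟩ := hSTEP
  obtain ⟨s4, LIM⟩ := hLIM hS
  set r : ℕ := r0 + r3 + dS + s4 + 2 with hr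
  obtain ⟨K5, hK5, STEP⟩ := STEP r3 r (by omega)
  obtain ⟨K6, hK6, INT⟩ := D.exists_interp r
  -- coercivity
  have key : ∀ (g' : RMetric (EV n) M) (D' : Dat g') (k : Fin n → Fin n → SmFr g),
      NegCurvature g' → D'.μ univ = D.μ univ → IsK g g' k →
      (topEntropy (D'.φ 1) ≤ topEntropy (D.φ 1) ∨
        ksEntropy D.m (D.φ 1) ≤ ksEntropy D'.m (D'.φ 1)) →
      K1 * (KS + K3) * D.hT r k ≤ 1 → K2 * KS * D.hT r k ≤ 1 → D.hT r k ≤ 1 →
      D.hT 0 k ^ 2 ≤ (n : ℝ) ^ 2 * (K3 * (2 * n * (K1 * (KS + K3) ^ 3) + (K2 * KS ^ 2) ^ 2 + 1)) *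
        (D.hT r k ^ 3 + D.hV r3 (divf (frCalc g) k) ^ 2) := by
    intro g' D' k hN' hvol hk hent h1 h2 h3
    have hrn := D.hT_nonneg r k
    have hn0 : (0 : ℝ) < n := by exact_mod_cast (by omega : 0 < n)
    obtain ⟨y, hy, hyb, hpos⟩ := POS k (gt2_of_isK hk)
    have c2 : D.cT 2 k ≤ KS * D.hT r k :=
      (sob 2 k).trans (mul_le_mul_of_nonneg_left (D.hT_mono (by omega) k) hKS.le)
    have c0 : D.cT 0 k ≤ KS * D.hT r k :=
      (sob 0 k).trans (mul_le_mul_of_nonneg_left (D.hT_mono (by omega) k) hKS.le)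
    have cy : D.cV 1 y ≤ K3 * D.hT r k :=
      hyb.trans (mul_le_mul_of_nonneg_left (D.hT_mono (by omega) k) hK3.le)
    have hsum : D.cT 2 k + D.cV 1 y ≤ (KS + K3) * D.hT r k := by linarith
    have hsum0 : 0 ≤ D.cT 2 k + D.cV 1 y := add_nonneg (D.cT_nonneg 2 k) (D.cV_nonneg 1 y)
    have hsm : K1 * (D.cT 2 k + D.cV 1 y) ≤ 1 :=
      (mul_le_mul_of_nonneg_left hsum hK1.le).trans (by linarith)
    obtain ⟨b1, b2⟩ := B2 g' D' k y hN' hvol hk hy hsm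
    have hQ := D.Q_le hn hN hS D' b1 b2 hent
    have hcube : (D.cT 2 k + D.cV 1 y) ^ 3 ≤ (KS + K3) ^ 3 * D.hT r k ^ 3 := by
      rw [← mul_pow]
      exact pow_le_pow_left₀ hsum0 hsum 3
    have hQ2 : D.Q k y ≤ 2 * n * (K1 * (KS + K3) ^ 3) * D.hT r k ^ 3 := by
      have e1 : D.Q k y / (2 * n) ≤ K1 * (D.cT 2 k + D.cV 1 y) ^ 3 := by linarith
      have e2 : D.Q k y / (2 * n) ≤ K1 * ((KS + K3) ^ 3 * D.hT r k ^ 3) :=
        e1.trans (mul_le_mul_of_nonneg_left hcube hK1.le)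
      have e3 : (0 : ℝ) < 2 * n := by linarith
      rw [div_le_iff₀ e3] at e2
      linarith
    have hv : D.I (∑ i, k i i) ^ 2 ≤ (K2 * KS ^ 2) ^ 2 * D.hT r k ^ 3 := by
      have hc0 := D.cT_nonneg 0 k
      have f0 : K2 * D.cT 0 k ≤ 1 :=
        (mul_le_mul_of_nonneg_left c0 hK2.le).trans (by linarith)
      have f1 := VOL g' D' k hvol hk f0
      have f2 : D.cT 0 k ^ 2 ≤ KS ^ 2 * D.hT r k ^ 2 := by
        rw [← mul_pow]
        exact pow_le_pow_left₀ hc0 c0 2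
      have f3 : |D.I (∑ i, k i i)| ≤ K2 * KS ^ 2 * D.hT r k ^ 2 := by
        refine f1.trans ?_
        rw [mul_assoc]
        exact mul_le_mul_of_nonneg_left f2 hK2.le
      have f4 : D.I (∑ i, k i i) ^ 2 ≤ (K2 * KS ^ 2 * D.hT r k ^ 2) ^ 2 := by
        rw [← sq_abs]
        exact pow_le_pow_left₀ (abs_nonneg _) f3 2
      refine f4.trans ?_
      have f5 : D.hT r k ^ 4 ≤ D.hT r k ^ 3 := pow_le_pow_of_le_one hrn h3 (by norm_num)
      calc (K2 * KS ^ 2 * D.hT r k ^ 2) ^ 2 = (K2 * KS ^ 2) ^ 2 * D.hT r k ^ 4 := by ring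
        _ ≤ (K2 * KS ^ 2) ^ 2 * D.hT r k ^ 3 := mul_le_mul_of_nonneg_left f5 (sq_nonneg _)
    have hd0 : 0 ≤ D.hV r3 (divf (frCalc g) k) ^ 2 := sq_nonneg _
    have h30 : 0 ≤ D.hT r k ^ 3 := pow_nonneg hrn 3
    have hfin : D.Q k y + D.hV r3 (divf (frCalc g) k) ^ 2 + D.I (∑ i, k i i) ^ 2 ≤
        (2 * n * (K1 * (KS + K3) ^ 3) + (K2 * KS ^ 2) ^ 2 + 1) *
          (D.hT r k ^ 3 + D.hV r3 (divf (frCalc g) k) ^ 2) := by
      have g1 : 0 ≤ 2 * n * (K1 * (KS + K3) ^ 3) := by positivity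
      have g2 : 0 ≤ (K2 * KS ^ 2) ^ 2 := sq_nonneg _
      nlinarith [mul_nonneg g1 hd0, mul_nonneg g2 hd0]
    calc D.hT 0 k ^ 2 ≤ (n : ℝ) ^ 2 * D.I (∑ i, ∑ j, k i j * k i j) := D.hT_zero_sq_le k
      _ ≤ (n : ℝ) ^ 2 * (K3 * ((2 * n * (K1 * (KS + K3) ^ 3) + (K2 * KS ^ 2) ^ 2 + 1) *
          (D.hT r k ^ 3 + D.hV r3 (divf (frCalc g) k) ^ 2))) := by
        refine mul_le_mul_of_nonneg_left (hpos.trans ?_) (sq_nonneg _)
        exact mul_le_mul_of_nonneg_left hfin hK3.le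
      _ = _ := by ring
  set K7 : ℝ := (n : ℝ) ^ 2 * (K3 * (2 * n * (K1 * (KS + K3) ^ 3) + (K2 * KS ^ 2) ^ 2 + 1))
    with hK7
  have hK70 : 0 ≤ K7 := by positivity
  set C : ℝ := K5 + K6 + K7 + 1 with hC
  have hC5 : K5 ≤ C := by linarith
  have hC6 : K6 ≤ C := by linarith
  have hC7 : K7 ≤ C := by linarith
  have hC1 : 1 ≤ C := by linarith
  set η : ℝ := 1 / (K1 * (KS + K3) + K2 * KS + K5 + 1) with hη
  have hden : 0 < K1 * (KS + K3) + K2 * KS + K5 + 1 := by positivity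
  have hη0 : 0 < η := by positivity
  have hsmall : ∀ e : ℝ, 0 ≤ e → e ≤ η →
      K1 * (KS + K3) * e ≤ 1 ∧ K2 * KS * e ≤ 1 ∧ e ≤ 1 ∧ K5 * e ≤ 1 := by
    intro e he he'
    have h1 : (K1 * (KS + K3) + K2 * KS + K5 + 1) * e ≤ 1 := by
      have := mul_le_mul_of_nonneg_left he' hden.le
      rwa [hη, mul_one_div_cancel hden.ne'] at this
    have p1 : 0 ≤ K1 * (KS + K3) * e := by positivity
    have p2 : 0 ≤ K2 * KS * e := by positivity
    have p3 : 0 ≤ K5 * e := by positivity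
    refine ⟨?_, ?_, ?_, ?_⟩ <;> nlinarith
  obtain ⟨ε, hε, newt⟩ := H832.newton C η hC1 hη0
  refine ⟨8 * r, ε, hε, ?_⟩
  intro g' D' k hN' hvol hk hkε hent
  refine LIM g' fun δ hδ => ?_
  -- the states
  let G : Type := {q : Dfo n M × (Fin n → Fin n → SmFr g) // IsK g (pull g' q.1) q.2}
  obtain ⟨q, -, hq⟩ := newt (G := G) (fun _ _ => True) (fun q => D.hT 0 q.1.2)
    (fun q => D.hT r q.1.2) (fun q => D.hT (8 * r) q.1.2)
    (fun q => D.hV r3 (divf (frCalc g) q.1.2))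
    (fun _ => trivial) (fun _ _ _ _ _ => trivial)
    (fun q => D.hT_nonneg _ _) (fun q => D.hT_nonneg _ _) (fun q => D.hT_nonneg _ _)
    (fun q => D.hV_nonneg _ _) (fun q => D.hT_mono (Nat.zero_le _) _)
    (fun q => by
      refine (INT q.1.2).trans ?_
      have h1 := D.hT_nonneg 0 q.1.2
      have h2 := D.hT_nonneg (8 * r) q.1.2
      gcongr)
    (⟨(Dfo.refl n M, k), isK_refl hk⟩ : G)
    (by
      rintro ⟨⟨ψ, k₁⟩, hk₁⟩ - he
      have hiso := isIso_pull g' ψ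
      obtain ⟨D₁⟩ := Dat.nonempty (g := pull g' ψ) inferInstance
      obtain ⟨f1, f2, f3⟩ := iso_facts D₁ D' hiso
      obtain ⟨s1, s2, s3, -⟩ := hsmall _ (D.hT_nonneg r k₁) he
      refine (key (pull g' ψ) D₁ k₁ (negCurvature_iso hiso hN') (f1.trans hvol) hk₁ ?_
        s1 s2 s3).trans ?_
      · rw [f2, f3]
        exact hent
      · have := D.hT_nonneg r k₁
        gcongr)
    (by
      rintro ⟨⟨ψ, k₁⟩, hk₁⟩ - he
      obtain ⟨-, -, -, s4⟩ := hsmall _ (D.hT_nonneg r k₁) he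
      obtain ⟨ψ', k', hk', t1, t2, t3⟩ := STEP (pull g' ψ) k₁ hk₁ s4
      have h1 := D.hT_nonneg r k₁
      have h2 := D.hT_nonneg (8 * r) k₁
      refine ⟨⟨(ψ.comp ψ', k'), isK_comp hk'⟩, trivial, t1.trans ?_, t2.trans ?_, t3.trans ?_⟩
      · exact mul_le_mul_of_nonneg_right hC5 h2
      · exact mul_le_mul_of_nonneg_right hC5 h1
      · exact mul_le_mul_of_nonneg_right hC5 (sq_nonneg _))
    hkε δ hδ
  exact ⟨q.1.1, q.1.2, q.2, (D.hT_mono (by omega) _).trans hq⟩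

end Dat

end Vale.Agent.P207.Kat
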