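import Vale.Agent.P207.Kat.Spec
import Vale.Agent.P207.H832.Seq
import Vale.Agent.P207.H832.Inst
import Vale.Agent.P207.H440.NSysLoc
import Vale.Agent.P207.H992.Sum
import Vale.Agent.P207.Fin

/-!
# P207 / Kat: composition of the blocks
-/

open scoped Manifold ContDiff ENNReal Topology
open Bundle MeasureTheory Set Filter Topology

noncomputable section

set_option maxSynthPendingDepth 3
set_option linter.unusedSectionVars false

namespace Vale.Agent.P207.Kat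

open Vale.Agent.P255 (RMetric coefIn Gam Riem innerAt)
open Vale.Agent.P207 Vale.Agent.P207.Q Vale.Agent.P207.H442
open Vale.Agent.P207.H476 (Dfo pull IsIso)

variable {n : ℕ} {M : Type} [TopologicalSpace M] [ChartedSpace (EV n) M]
  [IsManifold 𝓘(ℝ, EV n) ∞ M]

variable [NeZero n] [CompactSpace M] [T2Space M] [MeasurableSpace M] [BorelSpace M]

namespace Dat

variable {g : RMetric (EV n) M} (D : Dat g) [Nonempty (Fr g)]

/-! ### the norms -/

/-- the flows of 440 inside `D.S` -/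
def em : H440.Kp n → H955.Ix n
  | .inl i => .inl i
  | .inr p => .inr p.1

theorem loc : D.S.Loc := by
  refine H440.nsys_loc (horFlows g) D.S em fun κ t p => ?_
  cases κ with
  | inl i => rfl
  | inr q => rfl

theorem cl : D.S.CL := by
  refine H440.nsys_cl (horFlows g) D.S em (fun κ t p => ?_) fun f hf => hf
  cases κ with
  | inl i => rfl
  | inr q => rfl

theorem c_nonneg (s : ℕ) (u : SmFr g) : 0 ≤ D.c s u := H955.cN_nonneg D.S s u

theorem h_nonneg (s : ℕ) (u : SmFr g) : 0 ≤ D.h s u := H955.hN_nonneg D.S s u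

theorem h_mono {s t : ℕ} (hst : s ≤ t) (u : SmFr g) : D.h s u ≤ D.h t u := H955.hN_mono D.S hst u

theorem c_mono {s t : ℕ} (hst : s ≤ t) (u : SmFr g) : D.c s u ≤ D.c t u := H955.cN_mono D.S hst u

theorem cV_nonneg (s : ℕ) (y : Fin n → SmFr g) : 0 ≤ D.cV s y :=
  Finset.sum_nonneg fun i _ => D.c_nonneg s (y i)

theorem hV_nonneg (s : ℕ) (y : Fin n → SmFr g) : 0 ≤ D.hV s y :=
  Finset.sum_nonneg fun i _ => D.h_nonneg s (y i)

theorem cT_nonneg (s : ℕ) (k : Fin n → Fin n → SmFr g) : 0 ≤ D.cT s k :=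
  Finset.sum_nonneg fun i _ => Finset.sum_nonneg fun j _ => D.c_nonneg s (k i j)

theorem hT_nonneg (s : ℕ) (k : Fin n → Fin n → SmFr g) : 0 ≤ D.hT s k :=
  Finset.sum_nonneg fun i _ => Finset.sum_nonneg fun j _ => D.h_nonneg s (k i j)

theorem hT_mono {s t : ℕ} (hst : s ≤ t) (k : Fin n → Fin n → SmFr g) : D.hT s k ≤ D.hT t k :=
  Finset.sum_le_sum fun i _ => Finset.sum_le_sum fun j _ => D.h_mono hst (k i j)

theorem cT_mono {s t : ℕ} (hst : s ≤ t) (k : Fin n → Fin n → SmFr g) : D.cT s k ≤ D.cT t k :=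
  Finset.sum_le_sum fun i _ => Finset.sum_le_sum fun j _ => D.c_mono hst (k i j)

/-- Sobolev -/
theorem exists_sob : ∃ (d : ℕ) (K : ℝ), 0 < K ∧ ∀ (s : ℕ) (k : Fin n → Fin n → SmFr g),
    D.cT s k ≤ K * D.hT (s + d) k := by
  obtain ⟨d, K, hK, h⟩ := H955.exists_sobolev D.S D.loc
  refine ⟨d, K + 1, by linarith, fun s k => ?_⟩
  calc D.cT s k ≤ K * D.hT (s + d) k := by
        unfold cT hT
        rw [Finset.mul_sum]
        refine Finset.sum_le_sum fun i _ => ?_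
        rw [Finset.mul_sum]
        exact Finset.sum_le_sum fun j _ => h s (k i j)
    _ ≤ (K + 1) * D.hT (s + d) k := by
        have := D.hT_nonneg (s + d) k
        nlinarith

theorem h_zero_sq (u : SmFr g) : D.h 0 u ^ 2 = D.I (u * u) := by
  have h1 : D.h 0 u = Real.sqrt (∫ p, (u : C(Fr g, ℝ)) p ^ 2 ∂D.mP) := rfl
  rw [h1, Real.sq_sqrt (integral_nonneg fun p => sq_nonneg _)]
  refine integral_congr_ae (Eventually.of_forall fun p => ?_)
  exact sq _

theorem hT_zero_sq_le (k : Fin n → Fin n → SmFr g) :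
    D.hT 0 k ^ 2 ≤ (n : ℝ) ^ 2 * D.I (∑ i, ∑ j, k i j * k i j) := by
  have h1 : D.hT 0 k = ∑ q : Fin n × Fin n, D.h 0 (k q.1 q.2) := by
    unfold hT
    rw [Fintype.sum_prod_type]
  have h3 := sq_sum_le_card_mul_sum_sq (s := (Finset.univ : Finset (Fin n × Fin n)))
    (f := fun q => D.h 0 (k q.1 q.2))
  rw [h1]
  refine h3.trans (le_of_eq ?_)
  have h4 : ((Finset.univ : Finset (Fin n × Fin n)).card : ℝ) = (n : ℝ) ^ 2 := by
    simp [sq]
  rw [h4]
  congr 1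
  simp only [h_zero_sq, map_sum]
  rw [Fintype.sum_prod_type]

theorem inner_pow_aux {α : Type*} (t : Finset α) (f : α → ℝ) (hf : ∀ q, 0 ≤ f q) :
    (∑ q ∈ t, f q) ^ 8 ≤ (t.card : ℝ) ^ 7 * ∑ q ∈ t, f q ^ 8 :=
  pow_sum_le_card_mul_sum_pow (fun q _ => hf q) 7

/-- interpolation -/
theorem exists_interp (r : ℕ) : ∃ K : ℝ, 0 ≤ K ∧ ∀ k : Fin n → Fin n → SmFr g,
    D.hT r k ^ 8 ≤ K * D.hT 0 k ^ 7 * D.hT (8 * r) k := by
  obtain ⟨C, hC, h⟩ := (H832.cal D.S D.loc).n_interp_eight r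
  set c : ℝ := (1 + (Fintype.card (H955.Ix n) : ℝ)) ^ r with hc
  have hc0 : 0 ≤ c := by positivity
  have h1 : ∀ u : SmFr g, D.h r u ^ 8 ≤ c ^ 8 * C * D.h 0 u ^ 7 * D.h (8 * r) u := by
    intro u
    have a1 : D.h r u ≤ c * (H832.cal D.S D.loc).n r u := H832.hN_le_n D.S D.loc r u
    have a2 : (H832.cal D.S D.loc).n 0 u ≤ D.h 0 u := H832.n_le_hN D.S D.loc 0 u
    have a3 : (H832.cal D.S D.loc).n (8 * r) u ≤ D.h (8 * r) u := H832.n_le_hN D.S D.loc _ u
    have b0 := (H832.cal D.S D.loc).n_nonneg 0 u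
    have b1 := (H832.cal D.S D.loc).n_nonneg (8 * r) u
    have b2 := D.h_nonneg r u
    have b3 := D.h_nonneg 0 u
    calc D.h r u ^ 8 ≤ (c * (H832.cal D.S D.loc).n r u) ^ 8 := by gcongr
      _ = c ^ 8 * (H832.cal D.S D.loc).n r u ^ 8 := by ring
      _ ≤ c ^ 8 * (C * (H832.cal D.S D.loc).n 0 u ^ 7 * (H832.cal D.S D.loc).n (8 * r) u) := by
        gcongr
        exact h u
      _ ≤ c ^ 8 * (C * D.h 0 u ^ 7 * D.h (8 * r) u) := by gcongr
      _ = _ := by ring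
  have e : ∀ (s : ℕ) (k : Fin n → Fin n → SmFr g),
      D.hT s k = ∑ q : Fin n × Fin n, D.h s (k q.1 q.2) := by
    intro s k
    unfold hT
    rw [Fintype.sum_prod_type]
  refine ⟨((Finset.univ : Finset (Fin n × Fin n)).card : ℝ) ^ 7 * (c ^ 8 * C), by positivity,
    fun k => ?_⟩
  have h0 : ∀ q : Fin n × Fin n, D.h 0 (k q.1 q.2) ≤ D.hT 0 k := by
    intro q
    rw [e]
    exact Finset.single_le_sum (f := fun q : Fin n × Fin n => D.h 0 (k q.1 q.2))
      (fun q _ => D.h_nonneg 0 _) (Finset.mem_univ q)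
  calc D.hT r k ^ 8 = (∑ q : Fin n × Fin n, D.h r (k q.1 q.2)) ^ 8 := by rw [e]
    _ ≤ ((Finset.univ : Finset (Fin n × Fin n)).card : ℝ) ^ 7 *
        ∑ q : Fin n × Fin n, D.h r (k q.1 q.2) ^ 8 :=
      inner_pow_aux _ _ fun q => D.h_nonneg _ _
    _ ≤ ((Finset.univ : Finset (Fin n × Fin n)).card : ℝ) ^ 7 *
        ∑ q : Fin n × Fin n, c ^ 8 * C * D.hT 0 k ^ 7 * D.h (8 * r) (k q.1 q.2) := by
      gcongr with q
      refine (h1 _).trans ?_
      have := h0 q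
      have := D.h_nonneg 0 (k q.1 q.2)
      have := D.h_nonneg (8 * r) (k q.1 q.2)
      gcongr
    _ = _ := by
      rw [← Finset.mul_sum, ← e]
      ring

omit [Nonempty (Fr g)] in
theorem nonempty (hM : Nonempty M) : Nonempty (Dat g) := by
  obtain ⟨μ, hμ⟩ := exists_riemVol g
  have hn : 1 ≤ n := NeZero.one_le
  obtain ⟨m, hm⟩ := exists_liouville hn hμ
  obtain ⟨φ, hφ⟩ := exists_geoFlow g
  obtain ⟨mP, hP⟩ := exists_isMP hμ hm
  exact ⟨⟨μ, m, φ, mP, hμ, hm, hφ, fun t => hm.measurePreserving hn hφ hμ t, hP⟩⟩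

/-! ### the entropies -/

variable [ConnectedSpace M]

theorem entropy_facts (hn : 2 ≤ n) (hN : NegCurvature g) (hS : LocSymmetric g) :
    ksEntropy D.m (D.φ 1) = topEntropy (D.φ 1) ∧ topEntropy (D.φ 1) ≠ 0 ∧
      topEntropy (D.φ 1) ≠ ⊤ := by
  have e := ksEntropy_eq_of_locSymmetric hn D.hφ D.hμ D.hm hN hS
  have := D.hm.1
  refine ⟨e, (topEntropy_pos hn D.hφ hN).ne', ?_⟩
  rw [← e]
  exact ksEntropy_ne_top D.hφ (npc_of_neg hN) fun t => D.hmp t

/-- from (B2) to an upper bound of `Q` -/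
theorem Q_le (hn : 2 ≤ n) (hN : NegCurvature g) (hS : LocSymmetric g) {g' : RMetric (EV n) M}
    (D' : Dat g') {A : ℝ}
    (h1 : ksEntropy D.m (D.φ 1) ≤ ENNReal.ofReal A * topEntropy (D'.φ 1))
    (h2 : ksEntropy D'.m (D'.φ 1) ≤ ENNReal.ofReal A * topEntropy (D.φ 1))
    (h : topEntropy (D'.φ 1) ≤ topEntropy (D.φ 1) ∨
      ksEntropy D.m (D.φ 1) ≤ ksEntropy D'.m (D'.φ 1)) : 1 ≤ A := by
  obtain ⟨e, h0, ht⟩ := D.entropy_facts hn hN hS
  have h3 : topEntropy (D.φ 1) ≤ ENNReal.ofReal A * topEntropy (D.φ 1) := by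
    rw [e] at h1 h
    rcases h with h | h
    · exact h1.trans (mul_le_mul_right h _)
    · exact h.trans h2
  have h4 : (1 : ℝ≥0∞) ≤ ENNReal.ofReal A := by
    by_contra h5
    push Not at h5
    have h6 := ENNReal.mul_lt_mul_left h0 ht h5
    rw [one_mul] at h6
    exact absurd h3 (not_le.2 h6)
  rwa [ENNReal.one_le_ofReal] at h4

end Dat

end Vale.Agent.P207.Kat
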