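import Vale.Agent.P207.Kat.Final
import Vale.Agent.P207.H992.B2
import Vale.Agent.P207.H248.ExpAS
import Vale.Agent.P207.H608.DirB3
import Vale.Agent.P207.H832.StepFin
import Vale.Agent.P207.H734.GaugeS
import Vale.Agent.P207.H566.Close
import Vale.Agent.P207.H476.Eq

/-!
# P207 / Kat: all blocks together
-/

open scoped Manifold ContDiff ENNReal Topology
open Bundle MeasureTheory Set Filter Topology

noncomputable section

set_option maxSynthPendingDepth 3
set_option linter.unusedSectionVars false

namespace Vale.Agent.P207.Kat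

open Vale.Agent.P255 (RMetric coefIn Gam Riem innerAt)
open Vale.Agent.P207 Vale.Agent.P207.Q Vale.Agent.P207.H442
open Vale.Agent.P207.H476

variable {n : ℕ} {M : Type} [TopologicalSpace M] [ChartedSpace (EV n) M]
  [IsManifold 𝓘(ℝ, EV n) ∞ M]

theorem nonempty_fr [Nonempty M] (g : RMetric (EV n) M) : Nonempty (Fr g) := by
  obtain ⟨x⟩ := (inferInstance : Nonempty M)
  obtain ⟨f, -⟩ := H892.exists_frame g x
  exact ⟨f⟩

variable [NeZero n] [CompactSpace M] [T2Space M] [MeasurableSpace M]
  [BorelSpace M] [ConnectedSpace M]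

theorem fin_of_pos (hn : 2 ≤ n) {g : RMetric (EV n) M} [Nonempty (Fr g)] (D : Dat g)
    (hN : NegCurvature g) (hS : LocSymmetric g) (pos : D.POSStmt) : D.FINStmt := by
  have B2 := H992.b2Stmt hn D hN (H248.expA D (npc_of_neg hN)) (H608.expB D)
  have step := H832.stepStmt_of_gauge D (H832.gaugeStmt_of D (H734.gauge_stmt D hn hN hS))
  exact D.fin_of hn hN hS B2 (H992.volStmt D) pos step (H566.limStmt D)

/-- the only hypothesis is the positivity -/
theorem master (hn : 2 ≤ n) {g : RMetric (EV n) M} [Nonempty (Fr g)] (D : Dat g)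
    (hN : NegCurvature g) (hS : LocSymmetric g) (pos : D.POSStmt) :
    D.FinalStmt := by
  have FIN := fin_of_pos hn D hN hS pos
  exact D.final_of hn hN hS FIN (H476.eq_of_fin hn hN hS D FIN) (H566.nbhStmt D)

end Vale.Agent.P207.Kat
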